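import Vale.Agent.Lib.P335.helper45.PairDefs

/-!
Elementary facts about the switch `tau x y z w` on the 4-cycle `x z y w` (graph case of P335):
it preserves all degrees, is an involution, preserves `G - {x, y}` and `G - {z, w}`, preserves
the event `Sep`, moves exactly the graphs in `Sep`, and flips the four cross pairs there.
-/

namespace Vale.Agent.Lib.P335.H57

open Finset
open scoped Classical
open Vale.Agent.Lib.P335 Vale.Agent.Lib.P335.Bip Vale.Agent.Lib.P335.Gr
open Vale.Agent.Lib.P335.H45G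

variable {n : ℕ} {x y z w : Fin n}

/-- Off the cross pairs the switch does not change adjacency. -/
theorem tauG_adj_of_not_cross (G : SimpleGraph (Fin n)) (a b : Fin n)
    (h : ¬ IsCross x y z w a b) : (tauG x y z w G).Adj a b ↔ G.Adj a b := by
  rw [tauG_adj]
  constructor
  · rintro ⟨_, h2⟩
    exact h2.mpr (fun hc => h hc.2)
  · intro hG
    exact ⟨G.ne_of_adj hG, fun _ => fun hc => h hc.2, fun _ => hG⟩

/-- Without `Sep` the switch does nothing. -/
theorem tauG_eq_self_of_not_sep (G : SimpleGraph (Fin n)) (h : ¬ Sep x y z w G) :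
    tauG x y z w G = G := by
  ext a b
  rw [tauG_adj]
  constructor
  · rintro ⟨_, h2⟩
    exact h2.mpr (fun hc => h hc.1)
  · intro hG
    exact ⟨G.ne_of_adj hG, fun _ => fun hc => h hc.1, fun _ => hG⟩

/-- On `Sep` the switch flips every cross pair. -/
theorem tauG_adj_of_cross (G : SimpleGraph (Fin n)) (hS : Sep x y z w G) (a b : Fin n)
    (hab : a ≠ b) (h : IsCross x y z w a b) : (tauG x y z w G).Adj a b ↔ ¬ G.Adj a b := by
  rw [tauG_adj]
  constructor
  · rintro ⟨_, h2⟩ hG
    exact h2.mp hG ⟨hS, h⟩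
  · intro hG
    exact ⟨hab, fun h1 => absurd h1 hG, fun h1 => absurd ⟨hS, h⟩ h1⟩

theorem isCross_xz : IsCross x y z w x z := Or.inl ⟨Or.inl rfl, Or.inl rfl⟩
theorem isCross_xw : IsCross x y z w x w := Or.inl ⟨Or.inl rfl, Or.inr rfl⟩
theorem isCross_yz : IsCross x y z w y z := Or.inl ⟨Or.inr rfl, Or.inl rfl⟩
theorem isCross_yw : IsCross x y z w y w := Or.inl ⟨Or.inr rfl, Or.inr rfl⟩

/-- The event `Sep` is preserved by the switch (graph level). -/
theorem sep_tauG (hxz : x ≠ z) (hxw : x ≠ w) (hyz : y ≠ z) (hyw : y ≠ w)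
    (G : SimpleGraph (Fin n)) : Sep x y z w (tauG x y z w G) ↔ Sep x y z w G := by
  by_cases hS : Sep x y z w G
  · have h1 := tauG_adj_of_cross G hS x z hxz isCross_xz
    have h2 := tauG_adj_of_cross G hS x w hxw isCross_xw
    have h3 := tauG_adj_of_cross G hS y z hyz isCross_yz
    have h4 := tauG_adj_of_cross G hS y w hyw isCross_yw
    unfold H45G.Sep at hS ⊢
    rw [h1, h2, h3, h4]
    tauto
  · rw [tauG_eq_self_of_not_sep G hS]

/-- The switch is an involution (graph level). -/
theorem tauG_tauG (hxz : x ≠ z) (hxw : x ≠ w) (hyz : y ≠ z) (hyw : y ≠ w)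
    (G : SimpleGraph (Fin n)) : tauG x y z w (tauG x y z w G) = G := by
  ext a b
  rw [tauG_adj, tauG_adj, sep_tauG hxz hxw hyz hyw]
  have hne : G.Adj a b → a ≠ b := G.ne_of_adj
  tauto

/-- The switch preserves all degrees. -/
theorem tauG_degree (hxy : x ≠ y) (hxz : x ≠ z) (hxw : x ≠ w) (hyz : y ≠ z) (hyw : y ≠ w)
    (hzw : z ≠ w) (G : SimpleGraph (Fin n)) (v : Fin n) :
    (tauG x y z w G).degree v = G.degree v := by
  by_cases hS : Sep x y z w G
  swap
  · rw [tauG_eq_self_of_not_sep G hS]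
  have hflip : ∀ a b : Fin n, a ≠ b → IsCross x y z w a b →
      ((tauG x y z w G).Adj a b ↔ ¬ G.Adj a b) := fun a b hab h =>
    tauG_adj_of_cross G hS a b hab h
  have hkeep : ∀ a b : Fin n, ¬ IsCross x y z w a b →
      ((tauG x y z w G).Adj a b ↔ G.Adj a b) := fun a b h =>
    tauG_adj_of_not_cross G a b h
  have bool2 : ∀ (p q p' q' : Prop), (p' ↔ ¬ p) → (q' ↔ ¬ q) → ((p ∧ ¬ q) ∨ (q ∧ ¬ p)) →
      (decide p').toNat + (decide q').toNat = (decide p).toNat + (decide q).toNat := by
    intro p q p' q' hp hq hpq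
    by_cases h1 : p <;> by_cases h2 : q <;> simp_all
  -- the four poles
  by_cases hvx : v = x
  · subst hvx
    have hT := degree_two_transfer (G := tauG v y z w G) (G' := G) (v := v) (a := z) (b := w) hzw
      (fun u hu1 hu2 => hkeep v u (by
        unfold IsCross
        rintro (⟨_, h | h⟩ | ⟨h | h, _⟩)
        · exact hu1 h
        · exact hu2 h
        · exact hxz h
        · exact hxw h))
    have hb := bool2 (G.Adj v z) (G.Adj v w) ((tauG v y z w G).Adj v z) ((tauG v y z w G).Adj v w)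
      (hflip v z hxz isCross_xz) (hflip v w hxw isCross_xw) (by
        unfold H45G.Sep at hS
        tauto)
    omega
  by_cases hvy : v = y
  · subst hvy
    have hT := degree_two_transfer (G := tauG x v z w G) (G' := G) (v := v) (a := z) (b := w) hzw
      (fun u hu1 hu2 => hkeep v u (by
        unfold IsCross
        rintro (⟨_, h | h⟩ | ⟨h | h, _⟩)
        · exact hu1 h
        · exact hu2 h
        · exact hyz h
        · exact hyw h))
    have hb := bool2 (G.Adj v z) (G.Adj v w) ((tauG x v z w G).Adj v z) ((tauG x v z w G).Adj v w)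
      (hflip v z hyz isCross_yz) (hflip v w hyw isCross_yw) (by
        unfold H45G.Sep at hS
        tauto)
    omega
  by_cases hvz : v = z
  · subst hvz
    have hT := degree_two_transfer (G := tauG x y v w G) (G' := G) (v := v) (a := x) (b := y) hxy
      (fun u hu1 hu2 => hkeep v u (by
        unfold IsCross
        rintro (⟨h | h, _⟩ | ⟨_, h | h⟩)
        · exact hxz h.symm
        · exact hyz h.symm
        · exact hu1 h
        · exact hu2 h))
    have hb := bool2 (G.Adj v x) (G.Adj v y) ((tauG x y v w G).Adj v x) ((tauG x y v w G).Adj v y)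
      (hflip v x (Ne.symm hxz) (Or.inr ⟨Or.inl rfl, Or.inl rfl⟩))
      (hflip v y (Ne.symm hyz) (Or.inr ⟨Or.inl rfl, Or.inr rfl⟩)) (by
        unfold H45G.Sep at hS
        rw [G.adj_comm v x, G.adj_comm v y]
        tauto)
    omega
  by_cases hvw : v = w
  · subst hvw
    have hT := degree_two_transfer (G := tauG x y z v G) (G' := G) (v := v) (a := x) (b := y) hxy
      (fun u hu1 hu2 => hkeep v u (by
        unfold IsCross
        rintro (⟨h | h, _⟩ | ⟨_, h | h⟩)
        · exact hxw h.symm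
        · exact hyw h.symm
        · exact hu1 h
        · exact hu2 h))
    have hb := bool2 (G.Adj v x) (G.Adj v y) ((tauG x y z v G).Adj v x) ((tauG x y z v G).Adj v y)
      (hflip v x (Ne.symm hxw) (Or.inr ⟨Or.inr rfl, Or.inl rfl⟩))
      (hflip v y (Ne.symm hyw) (Or.inr ⟨Or.inr rfl, Or.inr rfl⟩)) (by
        unfold H45G.Sep at hS
        rw [G.adj_comm v x, G.adj_comm v y]
        tauto)
    omega
  -- any other vertex: the neighbourhood is unchanged
  · have hN : (tauG x y z w G).neighborFinset v = G.neighborFinset v := by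
      ext u
      rw [SimpleGraph.mem_neighborFinset, SimpleGraph.mem_neighborFinset]
      apply hkeep
      unfold IsCross
      rintro (⟨h | h, _⟩ | ⟨h | h, _⟩)
      · exact hvx h
      · exact hvy h
      · exact hvz h
      · exact hvw h
    unfold SimpleGraph.degree
    rw [hN]

variable {d : Fin n → ℕ}

/-- The underlying graph of `tau x y z w G` is `tauG x y z w G`. -/
theorem tau_val (hxy : x ≠ y) (hxz : x ≠ z) (hxw : x ≠ w) (hyz : y ≠ z) (hyw : y ≠ w)
    (hzw : z ≠ w) (G : Omega n d) : (tau x y z w G).1 = tauG x y z w G.1 := by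
  have h : ∀ v, (tauG x y z w G.1).degree v = d v := fun v =>
    (tauG_degree hxy hxz hxw hyz hyw hzw G.1 v).trans (G.2 v)
  unfold tau
  rw [dif_pos h]

/-- The switch is an involution. -/
theorem tau_tau (hxy : x ≠ y) (hxz : x ≠ z) (hxw : x ≠ w) (hyz : y ≠ z) (hyw : y ≠ w)
    (hzw : z ≠ w) (G : Omega n d) : tau x y z w (tau x y z w G) = G := by
  apply Subtype.ext
  rw [tau_val hxy hxz hxw hyz hyw hzw, tau_val hxy hxz hxw hyz hyw hzw,
    tauG_tauG hxz hxw hyz hyw]

/-- The switch does not change `G - {x, y}`. -/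
theorem gmask_tau_left (hxy : x ≠ y) (hxz : x ≠ z) (hxw : x ≠ w) (hyz : y ≠ z) (hyw : y ≠ w)
    (hzw : z ≠ w) (G : Omega n d) : gmask {x, y} (tau x y z w G).1 = gmask {x, y} G.1 := by
  rw [tau_val hxy hxz hxw hyz hyw hzw, gmask_eq_iff]
  intro a b ha hb
  apply tauG_adj_of_not_cross
  simp only [Finset.mem_insert, Finset.mem_singleton, not_or] at ha hb
  unfold IsCross
  rintro (⟨h | h, _⟩ | ⟨_, h | h⟩)
  · exact ha.1 h
  · exact ha.2 h
  · exact hb.1 h
  · exact hb.2 h

/-- The switch does not change `G - {z, w}`. -/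
theorem gmask_tau_right (hxy : x ≠ y) (hxz : x ≠ z) (hxw : x ≠ w) (hyz : y ≠ z) (hyw : y ≠ w)
    (hzw : z ≠ w) (G : Omega n d) : gmask {z, w} (tau x y z w G).1 = gmask {z, w} G.1 := by
  rw [tau_val hxy hxz hxw hyz hyw hzw, gmask_eq_iff]
  intro a b ha hb
  apply tauG_adj_of_not_cross
  simp only [Finset.mem_insert, Finset.mem_singleton, not_or] at ha hb
  unfold IsCross
  rintro (⟨_, h | h⟩ | ⟨h | h, _⟩)
  · exact hb.1 h
  · exact hb.2 h
  · exact ha.1 h
  · exact ha.2 h

/-- The switch preserves the event `Sep`. -/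
theorem sep_tau (hxy : x ≠ y) (hxz : x ≠ z) (hxw : x ≠ w) (hyz : y ≠ z) (hyw : y ≠ w)
    (hzw : z ≠ w) (G : Omega n d) : Sep x y z w (tau x y z w G).1 ↔ Sep x y z w G.1 := by
  rw [tau_val hxy hxz hxw hyz hyw hzw, sep_tauG hxz hxw hyz hyw]

/-- The switch fixes exactly the graphs outside `Sep`. -/
theorem tau_eq_self_iff (hxy : x ≠ y) (hxz : x ≠ z) (hxw : x ≠ w) (hyz : y ≠ z) (hyw : y ≠ w)
    (hzw : z ≠ w) (G : Omega n d) : tau x y z w G = G ↔ ¬ Sep x y z w G.1 := by
  constructor
  · intro h hS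
    have h1 : (tau x y z w G).1 = G.1 := by rw [h]
    rw [tau_val hxy hxz hxw hyz hyw hzw] at h1
    have h2 := tauG_adj_of_cross G.1 hS x z hxz isCross_xz
    rw [h1] at h2
    tauto
  · intro hS
    apply Subtype.ext
    rw [tau_val hxy hxz hxw hyz hyw hzw, tauG_eq_self_of_not_sep G.1 hS]

/-- On `Sep` the switch negates the four entries of the cross block. -/
theorem cb_tau (hxy : x ≠ y) (hxz : x ≠ z) (hxw : x ≠ w) (hyz : y ≠ z) (hyw : y ≠ w)
    (hzw : z ≠ w) (G : Omega n d) (hS : Sep x y z w G.1) :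
    cb x y z w (tau x y z w G).1 =
      (!(cb x y z w G.1).1, !(cb x y z w G.1).2.1, !(cb x y z w G.1).2.2.1,
        !(cb x y z w G.1).2.2.2) := by
  rw [tau_val hxy hxz hxw hyz hyw hzw]
  have h1 := tauG_adj_of_cross G.1 hS x z hxz isCross_xz
  have h2 := tauG_adj_of_cross G.1 hS x w hxw isCross_xw
  have h3 := tauG_adj_of_cross G.1 hS y z hyz isCross_yz
  have h4 := tauG_adj_of_cross G.1 hS y w hyw isCross_yw
  unfold cb
  simp only [h1, h2, h3, h4, decide_not]

/-- Off the cross pairs the switch does not change adjacency. -/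
theorem tau_adj_of_not_cross (hxy : x ≠ y) (hxz : x ≠ z) (hxw : x ≠ w) (hyz : y ≠ z)
    (hyw : y ≠ w) (hzw : z ≠ w) (G : Omega n d) (a b : Fin n) (h : ¬ IsCross x y z w a b) :
    (tau x y z w G).1.Adj a b ↔ G.1.Adj a b := by
  rw [tau_val hxy hxz hxw hyz hyw hzw]
  exact tauG_adj_of_not_cross G.1 a b h

end Vale.Agent.Lib.P335.H57
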